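import Vale.Agent.P004F.Qx.Fg
import Vale.Agent.P014T.Lc.Log
import Vale.Agent.P022K.CH.Fld
import Vale.Agent.P014U.Base

/-! # P014U, block BX: division in the kernel of the reduction -/

set_option autoImplicit false
set_option linter.all false

open NumberField Polynomial WeierstrassCurve.Affine
open scoped Classical

noncomputable section

namespace Vale.Agent.P014U.Bx

open Vale.Agent.P004H.H666 Vale.Agent.P004M.TE P179W
open Vale.Agent.P022D.W (dec inP_le_dec)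
open Vale.Agent.P022.H443 (inP)
open Vale.Agent.P022E.GW (Ov)
open Vale.Agent.P004K (K1 Ip)
open Vale.Agent.P004F.Qx.Fg (cf hD' eA ex_O Vr Dc)
open Vale.Agent.P014T.Lc (zf)

variable {A B : ℤ}

/-- `(f : g)` is the first coordinate of the multiplication by `m` -/
def Mp (A B : ℤ) (m : ℕ) (f g : Qb[X]) : Prop := ∀ P : Pt A B, P ≠ 0 → ∃ ρ : Qb, ρ ≠ 0 ∧
  xp (m • P) = ρ * f.eval (xp P) ∧ zp (m • P) = ρ * g.eval (xp P)

theorem zp1 {P : Pt A B} (h : P ≠ 0) : zp P = 1 := by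
  rcases P with _ | ⟨x, y, h'⟩
  · exact absurd rfl h
  · rfl

theorem ex_mp (hD : 4 * A ^ 3 + 27 * B ^ 2 ≠ 0) (m : ℕ) :
    (∃ f g, Mp A B m f g) ∧ ∃ f g, Mp A B (m + 1) f g := by
  induction m with
  | zero =>
    exact ⟨⟨1, 0, fun P _ => ⟨1, one_ne_zero, by simp, by simp⟩⟩, X, 1, fun P h =>
      ⟨1, one_ne_zero, by simp, by simp [zp1 h]⟩⟩
  | succ m ih =>
    obtain ⟨⟨f, g, h⟩, f', g', h'⟩ := ih
    refine ⟨⟨f', g', h'⟩, ?_⟩
    obtain ⟨u, w, e⟩ := (isCoprime_iff_aeval_ne_zero_of_isAlgClosed Qb Qb f g).2 fun x => by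
      obtain ⟨y, k⟩ := exists_pt (L := Qb) two_ne_zero (hD' hD) x
      obtain ⟨ρ, -, a, b⟩ := h _ (Point.some_ne_zero k)
      by_contra! j
      simp only [coe_aeval_eq_eval] at j
      rw [xp_some, j.1, mul_zero] at a
      rw [xp_some, j.2, mul_zero] at b
      rw [eq_zero_of_zp b, xp_zero] at a
      exact one_ne_zero a
    obtain ⟨a, ha⟩ : ∃ a, a = (f' * X - C (algebraMap ℚ Qb A) * g') ^ 2 -
      4 * C (algebraMap ℚ Qb B) * (f' + g' * X) * g' := ⟨_, rfl⟩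
    obtain ⟨b, hb⟩ : ∃ b, b = 2 * (f' * X + C (algebraMap ℚ Qb A) * g') * (f' + g' * X) +
      4 * C (algebraMap ℚ Qb B) * g' ^ 2 := ⟨_, rfl⟩
    obtain ⟨c, hc⟩ : ∃ c, c = (f' - g' * X) ^ 2 := ⟨_, rfl⟩
    refine ⟨u ^ 2 * f * a + 2 * u * w * g * a + w ^ 2 * (g * b - f * c),
      u ^ 2 * (f * b - g * a) + 2 * u * w * f * c + w ^ 2 * g * c, fun P k => ?_⟩
    obtain ⟨ρ, r0, r1, r2⟩ := h P k
    obtain ⟨σ, s0, s1, s2⟩ := h' P k
    obtain ⟨μ, m0, h1, h2, h3⟩ := rl_point two_ne_zero ((m + 1) • P) P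
    rw [← succ_nsmul, succ_nsmul P m, add_sub_cancel_right, ← succ_nsmul] at h1 h2 h3
    simp only [r1, r2, s1, s2, zp1 k] at h1 h2 h3
    have e' := congrArg (eval (xp P)) e
    refine ⟨μ * σ ^ 2 / ρ, div_ne_zero (mul_ne_zero m0 (pow_ne_zero 2 s0)) r0, ?_, ?_⟩ <;>
      rw [div_mul_eq_mul_div, eq_div_iff r0] <;>
      simp only [ha, hb, hc, eval_add, eval_sub, eval_mul, eval_pow, eval_ofNat, eval_C, eval_X,
        eval_one] at e' ⊢ <;>
      generalize eval (xp P) u = U at * <;> generalize eval (xp P) w = W at * <;>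
      generalize eval (xp P) f = F at * <;> generalize eval (xp P) g = G at *
    · linear_combination (U ^ 2 * F + 2 * U * W * G) * h1 + W ^ 2 * G * h2 - W ^ 2 * F * h3 -
        xp ((m + 1 + 1) • P) * ρ * (U * F + W * G + 1) * e'
    · linear_combination U ^ 2 * F * h2 - U ^ 2 * G * h1 + (2 * U * W * F + W ^ 2 * G) * h3 -
        zp ((m + 1 + 1) • P) * ρ * (U * F + W * G + 1) * e'

section val

variable {Γ : Type} [LinearOrderedCommGroupWithZero Γ] {v : Valuation Qb Γ}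

theorem vev {f : Qb[X]} (h : ∀ r, f.IsRoot r → v r ≤ 1) :
    ∃ (c : Γ) (k : ℕ), ∀ x, 1 < v x → v (f.eval x) = c * v x ^ k :=
  ⟨v f.leadingCoeff, f.roots.card, fun x k => by
    rw [(IsAlgClosed.splits f).eval_eq_prod_roots, map_mul, map_multiset_prod, Multiset.map_map,
      Multiset.map_congr (f := v ∘ fun a => x - a) rfl (g := fun _ => v x) fun a j =>
        v.map_sub_eq_of_lt_left ((h a (isRoot_of_mem_roots j)).trans_lt k),
      Multiset.map_const', Multiset.prod_replicate]⟩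

theorem kv_z {Q : Pt A B} (h : KerV v Q) {m : ℕ} (hm : v m = 1) :
    v (zf (m • Q)) = v (zf Q) := by
  rw [P014T.Lc.v_nsmul cf h (hm ▸ P014T.Lc.zf_lt cf h), hm, one_mul]

theorem kv_tor {Q : Pt A B} (h : KerV v Q) {m : ℕ} (hm : v m = 1) (e : m • Q = 0) : Q = 0 :=
  P014T.Lc.zf_eq_zero cf h ((map_eq_zero v).1 (by rw [← kv_z h hm, e]; exact map_zero v))

theorem kv_x {Q R : Pt A B} (h : KerV v Q) (k : KerV v R) (a : Q ≠ 0) (b : R ≠ 0)
    (e : v (zf Q) = v (zf R)) : v (xp Q) = v (xp R) := by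
  rcases Q with _ | ⟨x, y, h'⟩
  · exact absurd rfl a
  rcases R with _ | ⟨x', y', k'⟩
  · exact absurd rfl b
  have c := (P014T.Lc.bas cf h'.1 (not_le.1 h)).2.2.1
  have d := (P014T.Lc.bas cf k'.1 (not_le.1 k)).2.2.1
  change v (-x / y) = v (-x' / y') at e
  rw [← e] at d
  exact (eq_inv_of_mul_eq_one_left c).trans (eq_inv_of_mul_eq_one_left d).symm

/-- **division by a unit** -/
theorem kv_div (hD : 4 * A ^ 3 + 27 * B ^ 2 ≠ 0) {y : Pt A B} (h : KerV v y) {m : ℕ}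
    (hm : v m = 1) : ∃ w, KerV v w ∧ m • w = y := by
  rcases y with _ | ⟨x₀, y₀, h₀⟩
  · exact ⟨0, trivial, nsmul_zero m⟩
  obtain ⟨f, g, hf⟩ := (ex_mp hD m).1
  have s : 1 < v x₀ := not_le.1 h
  have key : ∀ x, 1 < v x → ∃ (P : Pt A B) (ρ : Qb), KerV v P ∧ m • P ≠ 0 ∧
      xp (m • P) = ρ * f.eval x ∧ 1 = ρ * g.eval x ∧ v (f.eval x) = v x * v (g.eval x) := by
    intro x j
    obtain ⟨y, k⟩ := exists_pt (L := Qb) two_ne_zero (hD' hD) x
    obtain ⟨ρ, r, a, b⟩ := hf _ (Point.some_ne_zero k)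
    have c : KerV v (.some x y k : Pt A B) := not_le.2 j
    have d := mt (kv_tor c hm) (Point.some_ne_zero k)
    have e := kv_x ((P014T.Lc.E1 cf).nsmul_mem c m) c d (Point.some_ne_zero k) (kv_z c hm)
    rw [zp1 d] at b
    refine ⟨_, ρ, c, d, a, b, mul_left_cancel₀ ((_root_.map_ne_zero v).2 r) ?_⟩
    rw [← map_mul, mul_left_comm, ← map_mul]
    exact ((congrArg v a).symm.trans e).trans
      ((mul_one _).symm.trans (congrArg _ ((map_one v).symm.trans (congrArg v b))))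
  have g0 : ∀ x, 1 < v x → g.eval x ≠ 0 := fun x j e => by
    obtain ⟨-, ρ, -, -, -, d, -⟩ := key x j
    rw [e, mul_zero] at d
    exact one_ne_zero d
  by_contra! k
  obtain ⟨β, i, hβ⟩ := vev (v := v) (f := f - C x₀ * g) fun x e => not_lt.1 fun j => by
    obtain ⟨P, ρ, a, b, c, d, -⟩ := key x j
    rw [IsRoot.def, eval_sub, eval_mul, eval_C] at e
    rcases xp_eq b (Point.some_ne_zero h₀) (c.trans (by
      rw [xp_some]; linear_combination ρ * e - x₀ * d)) with e | e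
    · exact k P a e
    · exact k (-P) (kerV_neg.2 a) (by rw [neg_nsmul, e, neg_neg])
  obtain ⟨γ, j, hγ⟩ := vev (v := v) (f := g) fun x e => not_lt.1 fun j => g0 x j e
  obtain ⟨t, rfl⟩ := IsAlgClosed.exists_pow_nat_eq x₀ two_pos
  have t1 : 1 < v t := (one_lt_pow_iff_of_nonneg zero_le' two_ne_zero).1 (map_pow v t 2 ▸ s)
  have t0 := (zero_lt_one.trans t1).ne'
  have cmp : ∀ n, n ≠ 0 → β * (v t ^ i) ^ n = v (eval (t ^ n) f - t ^ 2 * eval (t ^ n) g) ∧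
      v (eval (t ^ n) f) = v t ^ n * v (eval (t ^ n) g) ∧
      v (t ^ 2 * eval (t ^ n) g) = v t ^ 2 * v (eval (t ^ n) g) ∧ 0 < v (eval (t ^ n) g) ∧
      v (eval (t ^ n) g) = γ * (v t ^ j) ^ n := fun n n0 => by
    have a : 1 < v (t ^ n) := map_pow v t n ▸ one_lt_pow₀ t1 n0
    obtain ⟨-, -, -, -, -, -, e⟩ := key _ a
    have b := hβ _ a
    have c := hγ _ a
    rw [eval_sub, eval_mul, eval_C] at b
    rw [map_pow] at b c e
    exact ⟨by rw [b, pow_right_comm], e, by rw [map_mul, map_pow],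
      zero_lt_iff.2 ((_root_.map_ne_zero v).2 (g0 _ a)), by rw [c, pow_right_comm]⟩
  have big : ∀ n, 2 < n → β * (v t ^ i) ^ n = γ * (v t * v t ^ j) ^ n := fun n hn => by
    obtain ⟨a, b, c, d, e⟩ := cmp n (by omega)
    rw [a, v.map_sub_eq_of_lt_left (by
      rw [b, c]; exact mul_lt_mul_of_pos_right (pow_lt_pow_right₀ t1 hn) d), b, e, mul_pow,
      mul_left_comm]
  obtain ⟨a, b, c, d, e⟩ := cmp 1 one_ne_zero
  rw [v.map_sub_eq_of_lt_right (by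
    rw [b, c]; exact mul_lt_mul_of_pos_right (pow_lt_pow_right₀ t1 one_lt_two) d), c] at a
  have γ0 : γ ≠ 0 := fun z => d.ne' (by rw [e, z, zero_mul])
  have u0 := pow_ne_zero 3 (mul_ne_zero t0 (pow_ne_zero j t0))
  have e3 := big 3 (by norm_num)
  have e4 := big 4 (by norm_num)
  rw [pow_succ, ← mul_assoc, e3, pow_succ _ 3, ← mul_assoc γ,
    mul_right_inj' (mul_ne_zero γ0 u0)] at e4
  rw [e4, mul_left_inj' u0] at e3
  rw [e, e3, e4, pow_one, pow_one, mul_left_comm (v t ^ 2), mul_right_inj' γ0,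
    mul_left_inj' (pow_ne_zero j t0), sq, left_eq_mul₀ t0] at a
  exact t1.ne' a

end val

variable {l : ℕ} {P : Ideal (𝓞 Qb)}

theorem ex_v (o : Ov l P) : ∃ O, Vr P O ∧ ∀ n : ℤ, ¬ (l : ℤ) ∣ n → O.valuation n = 1 := by
  obtain ⟨O, h⟩ := ex_O o.2.1 fun e => o.1.ne_zero (by simpa [e] using o.2.2)
  exact ⟨O, h, fun n k => le_antisymm (P004F.Qx.Fg.vi n) (not_lt.1 fun j =>
    k (P022.H20.dvd_of_mem o.1 o.2.1 o.2.2 ((h.mem o.2.1 n).1 j)))⟩

theorem tor_of (o : Ov l P) {m : ℕ} (hm : ¬ l ∣ m) {y : Pt A B} (k : K1 P y) (e : m • y = 0) :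
    y = 0 := by
  obtain ⟨O, h, j⟩ := ex_v o
  exact kv_tor ((h.k1 y).1 k) (by simpa using j m (mt Int.natCast_dvd_natCast.1 hm)) e

theorem div_of (hD : 4 * A ^ 3 + 27 * B ^ 2 ≠ 0) (o : Ov l P) {m : ℕ} (hm : ¬ l ∣ m) {y : Pt A B}
    (k : K1 P y) (f : ∀ g ∈ dec P, ga g y = y) :
    ∃ z, K1 P z ∧ (∀ g ∈ dec P, ga g z = z) ∧ m • z = y := by
  obtain ⟨O, h, j⟩ := ex_v o
  have u : O.valuation m = 1 := by simpa using j m (mt Int.natCast_dvd_natCast.1 hm)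
  obtain ⟨z, a, b⟩ := kv_div hD ((h.k1 y).1 k) u
  exact ⟨z, (h.k1 z).2 a, fun g hg => sub_eq_zero.1 (kv_tor ((P014T.Lc.E1 cf).sub_mem
    ((h.k1 _).1 (Dc.k1 hg ((h.k1 z).2 a))) a) u (by rw [nsmul_sub, ← map_nsmul, b, f g hg, sub_self])),
    b⟩

/-- at a good prime the inertia group acts trivially modulo the kernel of the reduction -/
theorem k1_in (o : Ov l P) (hl : ¬ (l : ℤ) ∣ 2 * (4 * A ^ 3 + 27 * B ^ 2)) {g : GQ} (hg : g ∈ inP P)
    (y : Pt A B) : K1 P (ga g y - y) := by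
  obtain ⟨O, h, j⟩ := ex_v o
  have d : Dc P g := inP_le_dec hg
  rw [h.k1]
  by_cases k : K1 P y
  · exact (P014T.Lc.E1 cf).sub_mem ((h.k1 _).1 (d.k1 k)) ((h.k1 _).1 k)
  rcases y with _ | ⟨x, y, n⟩
  · exact absurd ((h.k1 0).2 trivial) k
  have a : O.valuation x ≤ 1 := not_not.1 (mt (h.k1 (.some x y n)).2 k)
  have hp := Nat.prime_iff_prime_int.1 o.1
  have e : O.valuation (Cv Qb (A : ℚ) (B : ℚ)).Δ = 1 := by
    rw [← j (-(2 ^ 3 * (2 * (4 * A ^ 3 + 27 * B ^ 2)))) fun k => hl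
      ((hp.dvd_or_dvd (dvd_neg.1 k)).elim (fun k => (hp.dvd_of_dvd_pow k).mul_right _) id)]
    congr 1
    simp only [WeierstrassCurve.Δ, WeierstrassCurve.b₂, WeierstrassCurve.b₄, WeierstrassCurve.b₆,
      WeierstrassCurve.b₈, eA]
    push_cast
    ring
  have i : ∀ z, O.valuation z ≤ 1 → O.valuation (g z - z) < 1 := fun z k => by
    obtain ⟨s, t, b, c⟩ := (h.ip z).2 k
    have b' : g • s ∉ P := fun k => b ((d s).1 k)
    refine (h.zp _).1 ⟨s * g • s, s * (g • t - t) - t * (g • s - s), fun k =>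
      (o.2.1.mem_or_mem k).elim b b', P.sub_mem (P.mul_mem_left _ (hg t)) (P.mul_mem_left _ (hg s)), ?_⟩
    have c' := congrArg g c
    rw [map_mul] at c'
    change (s : Qb) * g s * (g z - z) = s * (g t - t) - t * (g s - s)
    rw [← c', ← c]
    ring
  rw [ga_some]
  exact P014T.Lc.near cf _ _ ((h.ip _).1 (d.ip ((h.ip _).2 a))) a (e ▸ i x a)
    (e ▸ i y (y_int cf n.1 a))

variable [Pp]

theorem nd_pow (o : Ov l P) (h : l ≠ pp) (n : ℕ) : ¬ l ∣ pp ^ n := fun k =>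
  h ((Nat.prime_dvd_prime_iff_eq o.1 pp_prime).1 (o.1.dvd_of_dvd_pow k))

/-- no torsion in the kernel of the reduction -/
theorem k1_tor (o : Ov l P) (h : l ≠ pp) {y : Pt A B} (k : K1 P y) {n : ℕ} (e : pp ^ n • y = 0) :
    y = 0 := tor_of o (nd_pow o h n) k e

/-- division in the kernel of the reduction -/
theorem div1 (hD : 4 * A ^ 3 + 27 * B ^ 2 ≠ 0) {l : ℕ} {P : Ideal (𝓞 Qb)} (o : Ov l P) (h2 : l ≠ pp)
    {y : Pt A B} (k : K1 P y) (f : ∀ g ∈ dec P, ga g y = y) (n : ℕ) :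
    ∃ z, K1 P z ∧ (∀ g ∈ dec P, ga g z = z) ∧ pp ^ n • z = y := div_of hD o (nd_pow o h2 n) k f

theorem unr_pt' (o : Ov l P) (h : l ≠ pp) (hl : ¬ (l : ℤ) ∣ 2 * (4 * A ^ 3 + 27 * B ^ 2)) {g : GQ}
    (hg : g ∈ inP P) {n : ℕ} {y : Pt A B} (hy : ga g (pp ^ n • y) = pp ^ n • y) : ga g y = y :=
  sub_eq_zero.1 (k1_tor o h (k1_in o hl hg y) (n := n) (by
    rw [nsmul_sub, ← map_nsmul, hy, sub_self]))

theorem unr_pt {A B : ℤ} {l : ℕ} {P : Ideal (𝓞 Qb)} (o : Ov l P)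
    (hl : ¬ (l : ℤ) ∣ 2 * pp * (4 * A ^ 3 + 27 * B ^ 2)) {g : GQ} (hg : g ∈ inP P) {n : ℕ}
    {y : Pt A B} (hy : ga g (pp ^ n • y) = pp ^ n • y) : ga g y = y :=
  unr_pt' o (fun h => hl (h ▸ (dvd_mul_left _ _).mul_right _))
    (fun h => hl (by rw [mul_right_comm]; exact h.mul_right _)) hg hy

end Vale.Agent.P014U.Bx
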