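import Vale.Agent.P014U.Bx.Fg
import Vale.Agent.P014T.Bx.Ph

/-! # P014U, block BX: roots of unity and principal units -/

set_option autoImplicit false
set_option linter.all false

open Polynomial

noncomputable section

namespace Vale.Agent.P014U.Bx

export Vale.Agent.P014T.Bx (um vl vl_um vl_ne vl_inj um_vl vl_zero vl_add vl_neg vl_sub vl_smul
  vl_zsmul um_one um_mul um_pow mu vl_mu mu_um Fr gn pi pi_gn al al_gn pi_al al_mul SS Sg hDb cc_ga
  ex_sg add_lt add_le sub_lt mul_lt mul_le one_of U1 mem_U1 lv lv_um lv_zero nn nn_ne nn_zero lv_nn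
  par_good par_one Av ex_av rx nu xp_rx rx_of dn den_ne dn_fix nu_unit K1s po ee ee_swap ee_self F0
  loc Cb)

variable {F : Type} [Field F] {v : AbsoluteValue F ℝ} (hv : IsNonarchimedean v)
include hv

theorem root_one' {m : ℕ} (h2 : v m = 1) {x : Additive Fˣ} (h : m • x = 0) (k : x ∈ U1 hv) :
    x = 0 := by
  refine vl_inj (by_contra fun j : vl x ≠ 1 => ?_)
  have e := mul_geom_sum (vl x) m
  rw [← vl_smul, h, vl_zero, sub_self, mul_eq_zero_iff_left (sub_ne_zero.2 j)] at e
  have := Finset.sum_induction (s := Finset.range m) (fun i => vl x ^ i - 1) (fun y => v y < 1)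
    (fun _ _ => add_lt hv) (by simp) fun i _ => vl_smul i x ▸ (mem_U1 hv).1 (nsmul_mem k i)
  simp [e, h2] at this

theorem root_near' [IsAlgClosed F] {m : ℕ} (m0 : m ≠ 0) {x : Additive Fˣ} (h : m • x ∈ U1 hv) :
    ∃ z, m • z = 0 ∧ x - z ∈ U1 hv := by
  by_contra! k
  have e := (IsAlgClosed.splits _).eval_eq_prod_roots_of_monic (monic_X_pow_sub_C (1 : F) m0) (vl x)
  rw [mem_U1, vl_smul] at h
  rw [eval_sub, eval_pow, eval_X, eval_C] at e
  refine h.not_ge (e ▸ Multiset.prod_induction (fun y => 1 ≤ v y) _ (fun a b c d => by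
    rw [map_mul]; exact one_le_mul_of_one_le_of_one_le c d) (by simp) fun y j => ?_)
  obtain ⟨r, i, rfl⟩ := Multiset.mem_map.1 j
  have a : r ^ m = 1 := by simpa [sub_eq_zero] using isRoot_of_mem_roots i
  have r0 : r ≠ 0 := ne_zero_pow m0 (a ▸ one_ne_zero)
  have b : v r = 1 := (pow_eq_one_iff_of_nonneg (v.nonneg r) m0).1 (by rw [← map_pow, a, map_one])
  have := k (um r) (by rw [← um_pow r0, a, um_one])
  rwa [mem_U1, vl_sub, vl_um r0, div_sub_one r0, map_div₀, b, div_one, not_lt] at this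

variable [Pp]

theorem root_one (h2 : v pp = 1) {n : ℕ} {x : Additive Fˣ} (h : pp ^ n • x = 0) (k : x ∈ U1 hv) :
    x = 0 := root_one' hv (by rw [Nat.cast_pow, map_pow, h2, one_pow]) h k

theorem root_near [IsAlgClosed F] {n : ℕ} {x : Additive Fˣ} (h : pp ^ n • x ∈ U1 hv) :
    ∃ z, pp ^ n • z = 0 ∧ x - z ∈ U1 hv := root_near' hv (pow_ne_zero n pp_ne) h

end Vale.Agent.P014U.Bx
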