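import Vale.Agent.P014U.Bx.Lo
import Vale.Agent.P014U.Ki.Wp
import Vale.Agent.P014U.Sy.Ex

/-! # P014U, block BX: the cochain which trivialises the cup product of two Kummer cocycles -/

set_option autoImplicit false
set_option linter.all false

open NumberField Real
open scoped Classical

noncomputable section

namespace Vale.Agent.P014U.Bx

open Vale.Agent.P004H.H666 Vale.Agent.P004Z.H Vale.Agent.P014U.X4M.TE
open Vale.Agent.P022D.W (dec inP_le_dec)
open Vale.Agent.P022.H443 (inP)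
open Vale.Agent.P022E.GW (Ov)
open Vale.Agent.P004K (K1 Ip)
open Vale.Agent.P014U.X4S.Ga (K O)
open Vale.Agent.P014U.X4S.Aq
open Vale.Agent.P004F (hq)
open Vale.Agent.P014U.X4F.Rc (hn hn_mul mq mq_eq mq_zero apx O_nat lc_act)
open Vale.Agent.P014U.Sy Vale.Agent.P014U.Ki P027M.K
open Vale.Agent.P014T.Bx.Sg (lc_pt)

variable [Pp] {A B : ℤ}

section

variable (hD : 4 * A ^ 3 + 27 * B ^ 2 ≠ 0) {s : Fr A B → Qb} (h : Sg s)
include hD h

/-- the commutator pairing is four times the Weil pairing -/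
theorem weil (n : ℕ) : ∃ u : ℤ, IsCoprime u (pp : ℤ) ∧ ∀ a b : Fr A B, pp ^ n • pi a = 0 → pp ^ n • pi b = 0 →
    vl (ee (SS s) (pp ^ n) a b) = ex (4 * u * wp (hq hD) n (pi a) (pi b)) := by
  have c := h.cb hD
  let T : AddSubgroup (Fr A B) := pi.ker.comap (nsmulAddMonoidHom (pp ^ n))
  let E : T →+ T →+ Additive Qbˣ := AddMonoidHom.mk' (fun a => AddMonoidHom.mk'
    (fun b => ee (SS s) (pp ^ n) a b) fun b b' => by
      rw [ee_swap, AddSubgroup.coe_add, c.ee_add b.2 a.2, neg_add, ← ee_swap, ← ee_swap])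
    fun a a' => AddMonoidHom.ext fun b => c.ee_add a.2 b.2 a'
  have mem : ∀ {a : Fr A B}, pp ^ n • pi a = 0 → pi (pp ^ n • a) = 0 := fun k => (map_nsmul _ _ _).trans k
  let e : Fin 2 → T := fun i => ⟨gn (TM.cp n (bs (hq hD) i)), mem (by rw [pi_gn, TM.pow_smul_cp])⟩
  have co : ∀ a, pp ^ n • pi a = 0 → ∃ i j : ℕ, pi a = pi ((i • e 0 + j • e 1 : T) : Fr A B) ∧
      pi a = TM.cp n (i • bs (hq hD) 0 + j • bs (hq hD) 1) := fun a ha => by
    obtain ⟨t, ht⟩ := TM.exists_cp (hdiv (hq hD)) ha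
    have ap : ∀ x : ℤ_[pp], ∃ (i : ℕ) (y : ℤ_[pp]), x = i + (pp : ℕ) ^ n * y := fun x => by
      obtain ⟨y, hy⟩ := Ideal.mem_span_singleton.1 (PadicInt.appr_spec n x)
      exact ⟨_, y, sub_eq_iff_eq_add'.1 hy⟩
    obtain ⟨i, y, hi⟩ := ap ((bs (hq hD)).repr t 0)
    obtain ⟨j, z, hj⟩ := ap ((bs (hq hD)).repr t 1)
    have k : pi a = TM.cp n (i • bs (hq hD) 0 + j • bs (hq hD) 1) := by
      rw [← ht, ← sub_eq_zero, ← map_sub, TM.cp_eq_zero_iff]
      refine ⟨y • bs (hq hD) 0 + z • bs (hq hD) 1, ?_⟩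
      conv_lhs => rw [← (bs (hq hD)).sum_repr t, Fin.sum_univ_two, hi, hj]
      simp only [← Nat.cast_smul_eq_nsmul ℤ_[pp]]
      module
    refine ⟨i, j, k.trans ?_, k⟩
    simp only [AddSubgroup.coe_add, AddSubgroupClass.coe_nsmul, map_add, map_nsmul, e, pi_gn]
  have key : ∀ a b, pp ^ n • pi a = 0 → pp ^ n • pi b = 0 → ∃ d : ℤ,
      ee (SS s) (pp ^ n) a b = d • E (e 0) (e 1) ∧ wp (hq hD) n (pi a) (pi b) - hn n * d ∈ O := by
    intro a b ha hb
    obtain ⟨i, j, a1, a2⟩ := co a ha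
    obtain ⟨k, l, b1, b2⟩ := co b hb
    refine ⟨i * l - j * k, ?_, ?_⟩
    · rw [c.ee_congr a1 (mem hb), ee_swap, c.ee_congr b1 (i • e 0 + j • e 1).2, ← ee_swap]
      change E _ _ = _
      have e0 : ∀ a, E a a = 0 := fun a => ee_self _ _ _
      have e1 : E (e 1) (e 0) = -E (e 0) (e 1) := ee_swap _ _ _ _
      simp only [map_add, map_nsmul, AddMonoidHom.add_apply, AddMonoidHom.nsmul_apply, e0, e1]
      module
    · rw [a2, b2, ← mq_eq, wp_cp]
      congr 2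
      simp [dt]
  obtain ⟨ζ, pz, h1, a, b, ha, hb, h2⟩ := h.nd (pp ^ n) (pw_pos n).ne'
  obtain ⟨k, hk⟩ := h1 _ _ (e 0).2 (e 1).2
  obtain ⟨d, hd, -⟩ := key a b ((map_nsmul _ _ _).symm.trans ha) ((map_nsmul _ _ _).symm.trans hb)
  obtain ⟨t, rfl⟩ := ex_onto pz.pow_eq_one
  have ez : ∀ (z : ℤ) (x : K), ex (z * x) = ex x ^ z := fun z x => by
    rcases z with z | z
    · simpa using ex_nat z x
    · rw [Int.cast_negSucc, neg_mul, ex_neg, ex_nat, zpow_negSucc]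
  change vl (E _ _) = _ at hk
  have hu : ∃ u : ℤ, IsCoprime u (pp : ℤ) ∧ vl (E (e 0) (e 1)) = ex (hn n * (4 * u)) := by
    by_cases o : IsCoprime (k * t) (pp : ℤ)
    · refine ⟨_, o, ?_⟩
      rw [hk, ← ez]
      congr 1
      push_cast
      ring
    · refine ⟨1, isCoprime_one_left, ?_⟩
      rw [hd, vl_zsmul, hk, ← ez, ← ez, ← ex_nat, ex_eq] at h2
      rcases n with _ | n
      · rw [hk, ← ez, ex_eq]
        refine O_of (intCast_mem (PadicInt.subring pp) (4 * k * t - 4)) ?_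
        simp [hn]
      have ot : IsCoprime (t : ℤ) pp := Nat.isCoprime_iff_coprime.2 (Nat.Coprime.of_dvd_right
        (dvd_pow_self pp n.succ_ne_zero) (((ex_prim' (n + 1)).pow_iff_coprime (pw_pos _) t).1
          (by rwa [← ex_nat, mul_comm])))
      obtain ⟨c, hc⟩ : (pp : ℤ) ∣ k := by_contra fun j => o
        (((Nat.prime_iff_prime_int.1 pp_prime).irreducible.coprime_iff_not_dvd.2 j).symm.mul_left ot)
      obtain ⟨x, y, e⟩ := (IsCoprime.mul_left (x := d * k - 1) ⟨-1, d * c, by rw [hc]; ring⟩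
        ot).pow_right (n := n + 1)
      have e' : (x : K) * ((d * k - 1) * t) + y * pp ^ (n + 1) = 1 := by
        exact_mod_cast congrArg (Int.cast : ℤ → K) e
      have f4 : hn (n + 1) * 4 ∈ O := O_of (add_mem (O_mul (intCast_mem (PadicInt.subring pp) x) h2)
        (intCast_mem (PadicInt.subring pp) (4 * y))) (by
          push_cast
          linear_combination (-4 * hn (n + 1)) * e' + (4 * y) * hn_mul (n + 1))
      rw [hk, ← ez, ex_eq]
      exact O_of (O_mul f4 (intCast_mem (PadicInt.subring pp) (k * t - 1))) (by push_cast; ring)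
  obtain ⟨u, o, hu⟩ := hu
  refine ⟨u, o, fun a b ha hb => ?_⟩
  obtain ⟨d, h3, h4⟩ := key a b ha hb
  rw [h3, vl_zsmul, hu, ← ez, ex_eq]
  exact O_of (O_mul (intCast_mem (PadicInt.subring pp) (-(4 * u))) h4) (by push_cast; ring)

/-- the cochain, with values in the units -/
theorem core (n : ℕ) {P' Q' : Pt A B} (hP : ∀ g, ga g (pp ^ n • P') = pp ^ n • P')
    (hQ : ∀ g, ga g (pp ^ n • Q') = pp ^ n • Q') : ∃ φ : GQ → Additive Qbˣ, IsLocallyConstant φ ∧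
    (∀ g, pp ^ n • φ g = 0) ∧ (∀ g j : GQ, φ g + mu (g : Qb →+* Qb) (φ j) - φ (g * j) =
      ee (SS s) (pp ^ n) (al g (gn P') - gn P') (al g (al j (gn Q') - gn Q'))) ∧
    ∀ (M : Type) [AddCommGroup M] (f : Additive Qbˣ →+ M) (H : AddSubgroup (Pt A B))
      (ν : Pt A B → Qb), (∀ g X, ga g X = X → g (ν X) = ν X) →
      (∀ X ∈ H, ∀ Y ∈ H, f (um (cc X Y)) + f (um (ν (X + Y))) + f (um (ν (X - Y))) =
        2 • f (um (ν X)) + 2 • f (um (ν Y))) → ν 0 = 1 → pp ^ n • P' ∈ H → Q' ∈ H →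
      ∃ ε, (∀ g : GQ, ga g Q' = Q' → φ g = mu (g : Qb →+* Qb) ε - ε) ∧
        f (pp ^ n • ε) = f (2 • po (fun X => dn X - um (ν X)) (pp ^ n • Q') (pp ^ n • P')) := by
  have c := h.cb hD
  have hp : pi (pp ^ n • gn P' - gn (pp ^ n • P')) = 0 := by
    rw [map_sub, map_nsmul, pi_gn, pi_gn, sub_self]
  have hq : pi (pp ^ n • gn Q' - gn (pp ^ n • Q')) = 0 := by
    rw [map_sub, map_nsmul, pi_gn, pi_gn, sub_self]
  have gp : ∀ g, al g (gn (pp ^ n • P')) = gn (pp ^ n • P') := fun g => by rw [al_gn, hP]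
  have gq : ∀ g, al g (gn (pp ^ n • Q')) = gn (pp ^ n • Q') := fun g => by rw [al_gn, hQ]
  generalize pp ^ n • P' = P at *
  generalize hQ' : pp ^ n • Q' = Q at *
  obtain ⟨γ, hγ⟩ : ∃ γ, pp ^ n • γ = po (SS s) (pp ^ n • gn Q' - gn Q) (gn P) +
      (po (SS s) (gn Q) (gn P) + 2 • po dn Q P) := by
    generalize po (SS s) (pp ^ n • gn Q' - gn Q) (gn P) + _ = x
    obtain ⟨y, hy⟩ := IsAlgClosed.exists_pow_nat_eq (vl x) (pw_pos n)
    have y0 : y ≠ 0 := fun e => vl_ne x (by rw [← hy, e]; simp [pp_ne])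
    exact ⟨um y, by rw [← um_pow y0, hy, um_vl]⟩
  have fx : ∀ g : GQ, mu (g : Qb →+* Qb) (po (SS s) (gn Q) (gn P) + 2 • po dn Q P) =
      po (SS s) (gn Q) (gn P) + 2 • po dn Q P := fun g => by
    have := c.po_eqv g (gn Q) (gn P)
    rw [gp, gq] at this
    rw [map_add, ← this, map_nsmul]
    simp only [po, map_sub, dn_fix]
  refine ⟨fun g => F0 al (SS s) (pp ^ n) (gn Q) (gn P) (gn Q') (gn P') g +
    (mu (g : Qb →+* Qb) γ - γ), ?_, fun g => ?_, fun g j => ?_,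
    fun M _ f H ν h1 h2 h3 h4 h5 => ?_⟩
  · have e : ∀ g : GQ, mu (g : Qb →+* Qb) γ = um (g (vl γ)) := fun g => by
      conv_lhs => rw [← um_vl γ, mu_um]
      rfl
    simp only [F0, map_sub, map_nsmul, al_gn, hQ, e]
    exact ((lc_pt Q').prodMk (lc_act (vl γ))).comp fun z => po (SS s) (pp ^ n • gn P' - gn P)
      (gn z.1 - gn Q') - po (SS s) (pp ^ n • gn z.1 - gn Q - (pp ^ n • gn Q' - gn Q)) (gn P') +
      (um z.2 - γ)
  · beta_reduce
    rw [nsmul_add, c.F0_smul hq hp (gq g) (gp g), nsmul_sub, ← map_nsmul, hγ, map_add, fx]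
    abel
  · beta_reduce
    rw [← c.F0_d hq hp (gp g) (gq j), map_add, map_sub, ← c.mmul]
    abel
  refine ⟨γ - (po (SS s) (gn Q') (gn P) + 2 • po (fun X => um (ν X)) Q' P), fun g hg => ?_, ?_⟩
  · have e1 := c.po_eqv g (gn Q') (gn P)
    have e2 : ∀ X, ga g X = X → mu (g : Qb →+* Qb) (um (ν X)) = um (ν X) := fun X k =>
      (mu_um _ _).trans (congrArg um (h1 g X k))
    have gq' : al g (gn Q') = gn Q' := by rw [al_gn, hg]
    rw [gp, gq'] at e1
    beta_reduce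
    rw [F0, gq', sub_self, c.zero_r hp, map_sub (al g), map_nsmul, gq, gq', sub_self, map_sub (mu (g : Qb →+* Qb)),
      map_add (mu (g : Qb →+* Qb)), ← e1, map_nsmul, po, po, po, map_sub, map_sub, e2 _ hg, e2 _ (hP g),
      e2 _ (by rw [map_add, hg, hP]), zero_add, h.zero hD]
    abel
  · have := loc f pi H (s := fun a => um (s a)) (k := fun X Y => um (cc X Y))
      (ν := fun X => f (um (ν X))) (h.upar hD) h2 (by rw [h3, um_one, map_zero]) (p := gn P)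
      (by rwa [pi_gn]) (by rwa [pi_gn]) hq
    simp only [pi_gn] at this
    rw [nsmul_sub, hγ, map_sub, map_add, map_add, map_nsmul, map_nsmul, map_add, map_nsmul]
    erw [this]
    simp only [po, map_sub, SS, map_nsmul]
    module

end

/-- **the cochain `φ` with `d φ = 4 u κ P ∪ κ Q`, and its local behaviour** -/
theorem bx (hD : 4 * A ^ 3 + 27 * B ^ 2 ≠ 0) (n : ℕ) : ∃ u : ℤ, IsCoprime u (pp : ℤ) ∧ ∀ P' Q' : Pt A B,
    (∀ g, ga g (pp ^ n • P') = pp ^ n • P') → (∀ g, ga g (pp ^ n • Q') = pp ^ n • Q') →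
    ∃ φ : GQ → K, IsLocallyConstant φ ∧ (∀ g, (pp : K) ^ n * φ g ∈ O) ∧
      (∀ g j, φ g + cy g * φ j - φ (g * j) -
        4 * u * wp (hq hD) n (ga g P' - P') (ga g (ga j Q' - Q')) ∈ O) ∧
      (∀ (l : ℕ) (L : Ideal (𝓞 Qb)), Ov l L → ¬ (l : ℤ) ∣ 2 * pp * (4 * A ^ 3 + 27 * B ^ 2) →
        ∀ i ∈ inP L, φ i ∈ O) ∧
      ∀ (l : ℕ) (L : Ideal (𝓞 Qb)), Ov l L → l ≠ pp → K1 L (pp ^ n • P') → K1 L Q' →
        (∀ g ∈ dec L, ga g Q' = Q') → ∃ β : Qb, β ≠ 0 ∧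
          β ^ pp ^ n * (nu (pp ^ n • Q' + pp ^ n • P') ^ 2 : ℤ) =
            ((nu (pp ^ n • Q') * nu (pp ^ n • P')) ^ 2 : ℤ) ∧ ∀ g ∈ dec L, φ g - ku β g ∈ O := by
  obtain ⟨s, h⟩ := ex_sg hD
  obtain ⟨u, o, hu⟩ := weil hD h n
  refine ⟨u, o, fun P' Q' hP hQ => ?_⟩
  obtain ⟨φ, h1, h2, h3, h4⟩ := core hD h n hP hQ
  have r : ∀ g, vl (φ g) ^ pp ^ n = 1 := fun g => by rw [← vl_smul, h2, vl_zero]
  have hS : ∀ g, ga g (pp ^ n • Q' + pp ^ n • P') = pp ^ n • Q' + pp ^ n • P' := fun g => by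
    rw [map_add, hP, hQ]
  refine ⟨fun g => lg (vl (φ g)), h1.comp fun x => lg (vl x), fun g => lg_lev (r g),
    fun g j => ?_, fun l L o hl i hi => ?_, fun l L o l2 kP kQ fQ => ?_⟩
  · have e := hu (al g (gn P') - gn P') (al g (al j (gn Q') - gn Q'))
      (by rw [map_sub, pi_al, pi_gn, nsmul_sub, ← map_nsmul, hP, sub_self])
      (by rw [pi_al, ← map_nsmul, map_sub, pi_al, pi_gn, nsmul_sub, ← map_nsmul, hQ, sub_self,
        map_zero])
    rw [← h3, vl_sub, vl_add, vl_mu, map_sub, pi_al, pi_al, map_sub, pi_al, pi_gn, pi_gn] at e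
    rw [← ex_eq, ← e, ex_sub, ex_add, ← ex_cy, ex_lg (r _), ex_lg (r _), ex_lg (r _)]
    rfl
  · obtain ⟨v, a⟩ := ex_av o
    have vi : ∀ z : ℤ, v (algebraMap ℚ Qb z) ≤ 1 := fun z => by
      rw [map_intCast]; exact a.na.apply_intCast_le_one
    have hp := Nat.prime_iff_prime_int.1 o.1
    have v2 : v pp = 1 := by simpa using (a.int o pp).2 fun k => hl ((k.mul_left _).mul_right _)
    have vD : v (16 * (4 * algebraMap ℚ Qb A ^ 3 + 27 * algebraMap ℚ Qb B ^ 2)) = 1 := by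
      have := (a.int o (2 ^ 3 * (2 * (4 * A ^ 3 + 27 * B ^ 2)))).2 fun k =>
        hg_two hl ((hp.dvd_or_dvd k).elim (fun k => (hp.dvd_of_dvd_pow k).mul_right _) id)
      rw [← this, map_intCast, map_intCast]
      congr 1
      push_cast
      ring
    obtain ⟨ε, e1, e2⟩ := h4 ℝ (lv v) ⊤ (nn v) (fun g X k => by
      rw [nn]
      split_ifs
      · rw [← xp_ga, k]
      · exact map_one g) (fun X _ Y _ => par_good a.na (vi A) (vi B) vD X Y) nn_zero trivial trivial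
    simp only [po, map_sub, map_nsmul (lv v), a.lv_dn o hS, a.lv_dn o hP, a.lv_dn o hQ] at e2
    have e3 : v (vl ε) = 1 := lv_zero (by simpa [pp_ne] using e2)
    have e4 : φ i = 0 := root_one a.na v2 (h2 i) (by
      have := vl_ne ε
      rw [mem_U1, e1 i (unr_pt o hl hi (hQ i)), vl_sub, vl_mu, div_sub_one this, map_div₀, e3,
        div_one]
      exact a.in_lt o hi e3.le)
    rw [← ex_one, ex_lg (r i), e4, vl_zero]
  obtain ⟨v, a⟩ := ex_av o
  have vi : ∀ z : ℤ, v (algebraMap ℚ Qb z) ≤ 1 := fun z => by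
    rw [map_intCast]; exact a.na.apply_intCast_le_one
  have v2 : v pp = 1 := by
    simpa using (a.int o pp).2 fun k =>
      l2 ((Nat.prime_dvd_prime_iff_eq o.1 pp_prime).1 (Int.natCast_dvd_natCast.1 k))
  have x0 : ∀ {X : Pt A B}, K1 L X → xp X ≠ 0 := fun k =>
    v.pos_iff.1 ((v.nonneg _).trans_lt (a.k1 o k))
  have kQ' : K1 L (pp ^ n • Q') := (K1s hD o).nsmul_mem kQ _
  have kS : K1 L (pp ^ n • Q' + pp ^ n • P') := (K1s hD o).add_mem kQ' kP
  obtain ⟨ε, e1, e2⟩ := h4 (Additive Qbˣ ⧸ U1 a.na) (QuotientAddGroup.mk' (U1 a.na)) (K1s hD o) xp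
    (fun g X k => by rw [← xp_ga, k]) (fun X hX Y hY => by
      have c0 := cc_ne (hDb hD) X Y
      have := x0 hX
      have := x0 hY
      have := x0 ((K1s hD o).add_mem hX hY)
      have := x0 ((K1s hD o).sub_mem hX hY)
      rw [← map_add, ← map_add, ← map_nsmul, ← map_nsmul, ← map_add]
      refine QuotientAddGroup.eq_iff_sub_mem.2 ?_
      rw [mem_U1, vl_sub, vl_add, vl_add, vl_add, vl_smul, vl_smul, vl_um, vl_um, vl_um, vl_um, vl_um,
        ← mul_pow] <;> try assumption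
      exact par_one a.na (vi A) (vi B) (hDb hD) (a.k1 o hX) (a.k1 o hY)) xp_zero kP kQ
  have n0 : ∀ {X : Pt A B}, (∀ g, ga g X = X) → K1 L X → (nu X : Qb) ≠ 0 ∧
      dn X - um (xp X) = -um (nu X : Qb) := fun {X} f k => by
    have z : (nu X : Qb) ≠ 0 := Int.cast_ne_zero.2 fun e => nu_unit o f k (e ▸ dvd_zero _)
    have := den_ne (rx X)
    refine ⟨z, vl_inj ?_⟩
    rw [dn, vl_sub, vl_neg, vl_neg, vl_um this, vl_um (x0 k), vl_um z, xp_rx f, Rat.cast_def, nu]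
    field_simp
  rw [po, (n0 hS kS).2, (n0 hQ kQ').2, (n0 hP kP).2] at e2
  obtain ⟨δ, hδ⟩ : ∃ δ, pp ^ n • δ = 2 • (-um (nu (pp ^ n • Q' + pp ^ n • P') : Qb) -
      -um (nu (pp ^ n • Q') : Qb) - -um (nu (pp ^ n • P') : Qb)) := by
    generalize 2 • (-um (nu (pp ^ n • Q' + pp ^ n • P') : Qb) - _ - _) = x
    obtain ⟨y, hy⟩ := IsAlgClosed.exists_pow_nat_eq (vl x) (pw_pos n)
    have y0 : y ≠ 0 := fun e => vl_ne x (by rw [← hy, e]; simp [pp_ne])
    exact ⟨um y, by rw [← um_pow y0, hy, um_vl]⟩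
  obtain ⟨z, z1, z2⟩ := root_near a.na (n := n) (x := ε - δ) (by
    rw [nsmul_sub, hδ]; exact QuotientAddGroup.eq_iff_sub_mem.1 e2)
  have hb : vl (δ + z) ^ pp ^ n * (nu (pp ^ n • Q' + pp ^ n • P') ^ 2 : ℤ) =
      ((nu (pp ^ n • Q') * nu (pp ^ n • P')) ^ 2 : ℤ) := by
    have := (n0 hS kS).1
    have := (n0 hQ kQ').1
    have := (n0 hP kP).1
    rw [← vl_smul, nsmul_add, z1, add_zero, hδ, vl_smul, vl_sub, vl_sub, vl_neg, vl_neg, vl_neg,
      vl_um, vl_um, vl_um] <;> try assumption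
    push_cast
    field_simp
  refine ⟨vl (δ + z), vl_ne _, hb, fun g hg => ?_⟩
  have fb : g (vl (δ + z) ^ pp ^ n) = vl (δ + z) ^ pp ^ n := by
    rw [eq_div_of_mul_eq (Int.cast_ne_zero.2 (pow_ne_zero 2 (Int.cast_ne_zero.1 (n0 hS kS).1))) hb,
      map_div₀, map_intCast, map_intCast]
  have e5 : φ g - (mu (g : Qb →+* Qb) (δ + z) - (δ + z)) = 0 := root_one a.na v2 (n := n) (by
    rw [nsmul_sub, h2, nsmul_sub, ← map_nsmul, zero_sub, neg_eq_zero, sub_eq_zero]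
    exact vl_inj (by rw [vl_mu, vl_smul]; exact fb)) (by
    rw [e1 g (fQ g hg), show mu (g : Qb →+* Qb) ε - ε - (mu (g : Qb →+* Qb) (δ + z) - (δ + z)) =
      mu (g : Qb →+* Qb) (ε - δ - z) - (ε - δ - z) by simp only [map_sub, map_add]; abel]
    refine sub_mem ?_ z2
    have := a.dec_lt o hg z2
    rwa [map_sub, map_one] at this)
  beta_reduce
  rw [sub_eq_zero.1 e5, vl_sub, vl_mu]
  exact O_of (zero_mem _) (sub_self _)

end Vale.Agent.P014U.Bx
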